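import Vale.Agent.P232.GraphCert

/-! # P232: graph certificate, share at least 500000/10^7 -/

namespace Vale.Agent.P232.GraphData

/-- Part of the certificate. -/
def row050 : GTree :=
  .cutW 4000000 (.leaf 14065278 448903 [(0, 9994953), (1088888, 9651065), (3188888, 8937698),
    (3811111, 8441904), (4433333, 7817750), (5055555, 7031132), (5677777, 6018686), (5988888,
    5389250), (6300000, 4634701), (6611111, 3678853), (6922222, 2281338), (7000000, 1664443)]
    [(7080000, 446808)]) (.cutW 7000000 (.cutW 5500000 (.cutW 4750000 (.cutW 4370000 (.leaf
    13953568 234410 [(0, 9998623), (1166666, 9631693), (3188888, 8955486), (3811111, 8468787),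
    (4433333, 7856996), (5055555, 7087792), (5366666, 6627492), (5677777, 6101934), (5988888,
    5492416), (6300000, 4766838), (6455555, 4362851), (6611111, 3914620), (6766666, 3412327),
    (6922222, 2829593), (7000000, 2375985)] [(7080000, 56559)]) (.leaf 13951180 0 [(0, 10000000),
    (2100000, 9326820), (3188888, 8955864), (3811111, 8469359), (4433333, 7857830), (4744444,
    7495869), (5055555, 7088994), (5366666, 6628940), (5677777, 6103694), (5988888, 5494940),
    (6144444, 5171420), (6377777, 4618494), (6533333, 4245558), (6611111, 4070990), (6766666,
    3592279), (6844444, 3403408), (6922222, 3154659), (7000000, 2345528)] [(7080000, 66015)]))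
    (.cutW 5120000 (.leaf 13734252 0 [(0, 10000000), (1166666, 9643392), (2333333, 9273081),
    (3188888, 8989896), (3811111, 8520701), (4433333, 7932584), (4744444, 7585508), (5055555,
    7196445), (5366666, 6758148), (5677777, 6261870), (5911111, 5863358), (6066666, 5594502),
    (6144444, 5469074), (6300000, 5152663), (6377777, 5026283), (6533333, 4678363), (6611111,
    4551992), (6688888, 4385853), (6766666, 4215155), (6844444, 3847149), (6922222, 3192797),
    (7000000, 2306173)] [(7080000, 64020)]) (.leaf 13599302 0 [(0, 10000000), (1166666, 9650492),
    (2488888, 9238413), (3188888, 9010734), (3811111, 8552082), (4122222, 8280911), (4433333,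
    7978149), (4744444, 7640042), (5055555, 7261652), (5366666, 6839175), (5600000, 6506210),
    (5677777, 6412112), (5833333, 6165958), (5911111, 6063507), (6066666, 5799796), (6144444,
    5698971), (6300000, 5416131), (6377777, 5318441), (6455555, 5187984), (6533333, 5055683),
    (6688888, 4735785), (6844444, 3784867), (6922222, 3140511), (7000000, 2266932)] [(7080000,
    64494)]))) (.leaf 13527706 0 [(0, 10000000), (1166666, 9654228), (3188888, 9021687), (3811111,
    8568559), (4433333, 8002037), (4900000, 7487454), (5288888, 7000496), (5522222, 6709612),
    (5755555, 6393059), (5833333, 6326160), (5988888, 6089132), (6066666, 6007790), (6222222,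
    5757274), (6300000, 5681074), (6377777, 5570515), (6533333, 5301051), (6688888, 4614059),
    (6844444, 3677409), (6922222, 3051475), (7000000, 2204037)] [(7080000, 64179)])) (.leaf
    13527706 0 [(0, 10000000), (3188888, 9021687), (4511111, 7924101), (5522222, 6865250),
    (6300000, 6094994), (6844444, 3677409), (7000000, 2204037)] [(7080000, 64179)]))

theorem row050_ok : row050.check 500000 7000000 7080000 0 10000000 = true := by
  decide

end Vale.Agent.P232.GraphData
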