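import Vale.Agent.P232.GraphCert

/-! # P232: graph certificate, share at least 600000/10^7 -/

namespace Vale.Agent.P232.GraphData

/-- Part of the certificate. -/
def row060 : GTree :=
  .cutW 4000000 (.leaf 14192491 464875 [(0, 9994585), (1235555, 9595733), (3166111, 8927492),
    (3552222, 8636168), (4170000, 8060651), (4787777, 7336710), (5096666, 6904879), (5405555,
    6414283), (5714444, 5850157), (6023333, 5188570), (6332222, 4385638), (6641111, 3340959),
    (6872777, 2203615), (6950000, 1548202)] [(7000000, 881674)]) (.cutW 7000000 (.cutW 5500000
    (.cutW 4750000 (.cutW 4370000 (.leaf 14191839 362561 [(0, 9996695), (2085000, 9307685),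
    (3166111, 8927596), (3552222, 8636303), (4170000, 8060850), (4787777, 7336999), (5405555,
    6414705), (5714444, 5850673), (6023333, 5189217), (6332222, 4386604), (6486666, 3934183),
    (6641111, 3416570), (6795555, 2810920), (6950000, 1872879)] [(7000000, 57674)]) (.leaf
    14322131 20667 [(0, 9999989), (1467222, 9508948), (2162222, 9267267), (3166111, 8906602),
    (3552222, 8609120), (3861111, 8331856), (4170000, 8020678), (4478888, 7671462), (4787777,
    7278732), (5096666, 6834992), (5405555, 6329524), (5714444, 5746060), (6023333, 5058936),
    (6177777, 4690912), (6332222, 4282604), (6409444, 4089228), (6486666, 3864631), (6563888,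
    3627615), (6641111, 3375789), (6718333, 3105807), (6795555, 2812706), (6872777, 2488626),
    (6950000, 1858315)] [(7000000, 51672)])) (.cutW 5120000 (.leaf 14114700 0 [(0, 10000000),
    (1003888, 9676457), (3166111, 8939912), (3552222, 8652240), (4170000, 8084368), (4787777,
    7371030), (5405555, 6464246), (5714444, 5914488), (5946111, 5470363), (6100555, 5168152),
    (6332222, 4635289), (6563888, 4065410), (6641111, 3957721), (6795555, 3482449), (6872777,
    2876527), (6950000, 1828756)] [(7000000, 64082)]) (.leaf 13962761 0 [(0, 10000000), (2162222,
    9304936), (3166111, 8963926), (3552222, 8683292), (4170000, 8130118), (4787777, 7437068),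
    (5251111, 6800129), (5637222, 6184639), (5868888, 5810624), (6100555, 5395928), (6332222,
    4954708), (6409444, 4879959), (6718333, 4091839), (6872777, 2827569), (6950000, 1798051)]
    [(7000000, 63472)]))) (.leaf 13868467 0 [(0, 10000000), (3166111, 8978666), (4170000,
    8158135), (4942222, 7281569), (5328333, 6756440), (5560000, 6442799), (5791666, 6098336),
    (6023333, 5738678), (6255000, 5363888), (6332222, 5317822), (6563888, 4820291), (6718333,
    3974348), (6872777, 2743624), (6950000, 1744570)] [(7000000, 64601)])) (.leaf 13868467 0 [(0,
    10000000), (3166111, 8978666), (4324444, 8003481), (5482777, 6673979), (6332222, 5750713),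
    (6950000, 1744570)] [(7000000, 64601)]))

theorem row060_ok : row060.check 600000 6950000 7000000 0 10000000 = true := by
  decide

end Vale.Agent.P232.GraphData
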