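import Vale.Agent.P232.GraphCert

/-! # P232: graph certificate, share at least 710000/10^7 -/

namespace Vale.Agent.P232.GraphData

/-- Part of the certificate. -/
def row071 : GTree :=
  .cutW 4000000 (.leaf 14319851 480379 [(0, 9994222), (996666, 9669258), (2453333, 9164420),
    (3183099, 8900745), (3756666, 8429774), (4370000, 7800016), (4676666, 7426393), (4983333,
    7005474), (5290000, 6528118), (5596666, 5980829), (5903333, 5342152), (6210000, 4573967),
    (6516666, 3594175), (6670000, 2961738), (6823333, 2128213), (6900000, 1434855)] [(6950000,
    649547)]) (.cutW 7000000 (.cutW 5500000 (.cutW 4750000 (.cutW 4370000 (.leaf 14356728 433402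
    [(0, 9995277), (2070000, 9296182), (3183099, 8894724), (3756666, 8420917), (4370000, 7787059),
    (4983333, 6986705), (5596666, 5953072), (5903333, 5307547), (6210000, 4529167), (6516666,
    3544230), (6670000, 2980954), (6823333, 2223622), (6900000, 1570178)] [(6950000, 45929)])
    (.leaf 14405512 139705 [(0, 9999511), (843333, 9717476), (2070000, 9291208), (3183099,
    8886728), (3450000, 8677561), (3756666, 8409151), (4063333, 8107851), (4370000, 7769835),
    (4676666, 7390070), (4983333, 6961724), (5290000, 6475163), (5443333, 6205839), (5596666,
    5916044), (5750000, 5602598), (5903333, 5263654), (6056666, 4900181), (6133333, 4719746),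
    (6210000, 4522900), (6286666, 4317667), (6363333, 4102973), (6440000, 3877454), (6516666,
    3639312), (6593333, 3386106), (6670000, 3114413), (6746666, 2819162), (6823333, 2492277),
    (6900000, 1850447)] [(6950000, 20613)])) (.cutW 5120000 (.leaf 14356763 0 [(0, 10000000),
    (1226666, 9589159), (3183099, 8894718), (3756666, 8420908), (4370000, 7787047), (4983333,
    6986687), (5290000, 6505391), (5596666, 5953254), (5826666, 5497701), (6056666, 4998966),
    (6210000, 4662610), (6286666, 4506726), (6440000, 4083981), (6516666, 3920370), (6593333,
    3708106), (6670000, 3485254), (6823333, 2864544), (6900000, 1826440)] [(6950000, 63318)])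
    (.leaf 14194009 0 [(0, 10000000), (1226666, 9598614), (3183099, 8921145), (3756666, 8459756),
    (4370000, 7843818), (4983333, 7068787), (5290000, 6605672), (5673333, 5950991), (5903333,
    5553171), (6133333, 5106955), (6363333, 4627259), (6593333, 4106697), (6670000, 4045288),
    (6823333, 2819156), (6900000, 1796324)] [(6950000, 64214)]))) (.leaf 14084161 0 [(0,
    10000000), (3183099, 8938767), (3756666, 8485626), (4370000, 7881541), (4983333, 7123142),
    (5443333, 6446182), (5673333, 6123343), (5903333, 5753285), (6133333, 5365230), (6440000,
    4770355), (6516666, 4783719), (6670000, 3955162), (6823333, 2731142), (6900000, 1739971)]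
    [(6950000, 64616)])) (.leaf 14084161 0 [(0, 10000000), (3183099, 8938767), (4830000, 7332200),
    (5520000, 6643634), (6286666, 5670979), (6900000, 1739971)] [(6950000, 64616)]))

theorem row071_ok : row071.check 710000 6900000 6950000 0 10000000 = true := by
  decide

end Vale.Agent.P232.GraphData
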