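import Vale.Agent.P232.GraphCert

/-! # P232: graph certificate, share at least 810000/10^7 -/

namespace Vale.Agent.P232.GraphData

/-- Part of the certificate. -/
def row081 : GTree :=
  .cutW 4000000 (.leaf 14446555 495881 [(0, 9993839), (1217777, 9586972), (2740000, 9044201),
    (3196666, 8869798), (3805555, 8353150), (4110000, 8046470), (4414444, 7702557), (4718888,
    7316162), (5023333, 6880127), (5327777, 6384295), (5632222, 5813381), (5936666, 5142443),
    (6241111, 4325175), (6393333, 3833181), (6545555, 3253106), (6697777, 2524956), (6773888,
    2058029), (6850000, 1325803)] [(6900000, 322493)]) (.cutW 7000000 (.cutW 5500000 (.cutW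
    4750000 (.cutW 4370000 (.leaf 14479661 478405 [(0, 9994273), (608888, 9794716), (2283333,
    9206612), (3196666, 8864280), (3805555, 8344844), (4414444, 7690434), (5023333, 6862544),
    (5327777, 6362971), (5632222, 5787195), (5936666, 5109522), (6241111, 4281837), (6393333,
    3797538), (6545555, 3241144), (6697777, 2571782), (6850000, 1286659)] [(6900000, 38727)])
    (.leaf 14445020 289748 [(0, 9997894), (1522222, 9481017), (2435555, 9155517), (3196666,
    8870054), (3805555, 8353534), (4414444, 7703118), (4718888, 7316836), (5023333, 6880941),
    (5327777, 6385281), (5632222, 5814591), (5936666, 5143963), (6088888, 4776510), (6241111,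
    4374199), (6393333, 3933285), (6469444, 3725213), (6545555, 3477735), (6621666, 3213059),
    (6697777, 2926776), (6773888, 2612074), (6850000, 1842096)] [(6900000, 14079)])) (.cutW
    5120000 (.leaf 14519477 57310 [(0, 9999917), (1217777, 9582701), (1978888, 9312398), (3196666,
    8857622), (3805555, 8334819), (4414444, 7675791), (4718888, 7283946), (5023333, 6841283),
    (5327777, 6337165), (5632222, 5756306), (5860555, 5276968), (6012777, 4945734), (6088888,
    4787616), (6241111, 4387927), (6317222, 4221164), (6469444, 3758902), (6545555, 3580078),
    (6621666, 3343502), (6697777, 3091581), (6773888, 2820436), (6850000, 1821325)] [(6900000,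
    34101)]) (.leaf 14428627 0 [(0, 10000000), (1446111, 9508785), (3196666, 8872780), (3805555,
    8357636), (4414444, 7709103), (5023333, 6889614), (5327777, 6398070), (5708333, 5699820),
    (5936666, 5274529), (6241111, 4586815), (6469444, 4076209), (6545555, 3997029), (6697777,
    3515287), (6850000, 1790807)] [(6900000, 62918)]))) (.leaf 14302021 0 [(0, 10000000),
    (3196666, 8893701), (3805555, 8389092), (4414444, 7754941), (4871111, 7173943), (5480000,
    6227038), (5708333, 5904075), (5936666, 5510941), (6165000, 5096042), (6317222, 4852022),
    (6545555, 4349316), (6697777, 3398466), (6850000, 1735669)] [(6900000, 65363)])) (.leaf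
    14302021 0 [(0, 10000000), (3196666, 8893701), (4490555, 7667530), (5480000, 6459286),
    (6317222, 5404258), (6850000, 1735669)] [(6900000, 65363)]))

theorem row081_ok : row081.check 810000 6850000 6900000 0 10000000 = true := by
  decide

end Vale.Agent.P232.GraphData
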