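import Vale.Agent.P232.GraphCert

/-! # P232: graph certificate, share at least 910000/10^7 -/

namespace Vale.Agent.P232.GraphData

/-- Part of the certificate. -/
def row091 : GTree :=
  .cutW 4000000 (.leaf 14527363 533090 [(0, 9992878), (1284444, 9558840), (1964444, 9316832),
    (3173333, 8870307), (3702222, 8430499), (4004444, 8133747), (4306666, 7801078), (4608888,
    7427670), (4911111, 7007011), (5213333, 6529977), (5515555, 5983100), (5817777, 5344982),
    (6120000, 4577623), (6271111, 4123465), (6422222, 3599295), (6573333, 2968248), (6724444,
    2036864), (6800000, 1290232)] [(6850000, 23803)]) (.cutW 7000000 (.cutW 5500000 (.cutW 4750000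
    (.leaf 14482071 441763 [(0, 9995119), (75555, 9974748), (1057777, 9640454), (1662222,
    9428845), (2191111, 9239713), (3173333, 8877784), (3400000, 8703744), (3702222, 8441173),
    (4004444, 8146688), (4306666, 7816682), (4608888, 7446434), (4911111, 7029587), (5062222,
    6801051), (5213333, 6557264), (5364444, 6296454), (5515555, 6016410), (5666666, 5714303),
    (5817777, 5386422), (5968888, 5027727), (6120000, 4631062), (6271111, 4189054), (6346666,
    3958418), (6422222, 3707532), (6497777, 3439064), (6573333, 3148766), (6648888, 2830219),
    (6724444, 2472841), (6800000, 1834355)] [(6850000, 44988)]) (.cutW 5120000 (.leaf 14600613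
    171932 [(0, 9999259), (1284444, 9554276), (3173333, 8858150), (3702222, 8413137), (4306666,
    7775673), (4608888, 7397098), (4911111, 6970193), (5213333, 6485423), (5666666, 5616602),
    (5893333, 5125224), (6044444, 4783588), (6120000, 4620749), (6271111, 4203131), (6346666,
    4029973), (6497777, 3540721), (6573333, 3352070), (6648888, 3098119), (6724444, 2824448),
    (6800000, 1815176)] [(6850000, 47173)]) (.leaf 14666649 0 [(0, 10000000), (1813333, 9358620),
    (3173333, 8847124), (3702222, 8397379), (4306666, 7752589), (4911111, 6936674), (5440000,
    6028474), (5817777, 5266633), (6044444, 4800162), (6271111, 4253352), (6346666, 4152277),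
    (6497777, 3700171), (6648888, 3256944), (6724444, 2805033), (6800000, 1793170)] [(6850000,
    63906)]))) (.leaf 14522153 0 [(0, 10000000), (3173333, 8871168), (3702222, 8431730), (4306666,
    7802877), (4911111, 7009615), (5288888, 6422373), (5742222, 5611519), (5968888, 5250817),
    (6195555, 4804529), (6271111, 4743618), (6573333, 3918291), (6800000, 1731517)] [(6850000,
    63041)])) (.leaf 14522153 0 [(0, 10000000), (3173333, 8871168), (4533333, 7529302), (5515555,
    6270249), (6271111, 5313329), (6800000, 1731517)] [(6850000, 63041)]))

theorem row091_ok : row091.check 910000 6800000 6850000 0 10000000 = true := by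
  decide

end Vale.Agent.P232.GraphData
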