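import Vale.Agent.P232.GraphCert

/-! # P232: graph certificate, share at least 990000/10^7 -/

namespace Vale.Agent.P232.GraphData

/-- Part of the certificate. -/
def row099 : GTree :=
  .cutW 4000000 (.leaf 14636940 546283 [(0, 9992536), (75000, 9974394), (1275000, 9555374),
    (2475000, 9117116), (3183099, 8848330), (3750000, 8358977), (4050000, 8053526), (4350000,
    7711059), (4650000, 7326387), (4950000, 6892448), (5250000, 6399226), (5550000, 5831699),
    (5850000, 5165434), (6150000, 4355349), (6300000, 3868867), (6450000, 3297089), (6600000,
    2571803), (6675000, 2040803), (6750000, 1295330)] [(6800000, 41824)]) (.cutW 7000000 (.cutW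
    5500000 (.cutW 4750000 (.leaf 14607869 533795 [(0, 9992873), (75000, 9974495), (1425000,
    9503726), (3183099, 8853196), (3750000, 8366125), (4050000, 8062179), (4350000, 7721483),
    (4650000, 7338922), (4950000, 6907543), (5250000, 6417509), (5550000, 5854109), (5850000,
    5193521), (6150000, 4392109), (6300000, 3918072), (6450000, 3378748), (6525000, 3096430),
    (6675000, 2180111), (6750000, 1510820)] [(6800000, 62597)]) (.cutW 5120000 (.leaf 14635655
    318779 [(0, 9997444), (2175000, 9228773), (3183099, 8848545), (3750000, 8359293), (4350000,
    7711520), (4950000, 6893116), (5250000, 6400036), (5700000, 5514131), (5925000, 5016676),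
    (6150000, 4456680), (6300000, 4075783), (6450000, 3632961), (6525000, 3445858), (6675000,
    2818538), (6750000, 1807546)] [(6800000, 43698)]) (.leaf 14772012 92730 [(0, 9999783),
    (1950000, 9298143), (3183099, 8825557), (3750000, 8325496), (4350000, 7662164), (4950000,
    6821475), (5475000, 5881936), (5700000, 5449897), (5850000, 5149074), (6075000, 4610378),
    (6300000, 4035496), (6375000, 3931658), (6675000, 2780221), (6750000, 1787390)] [(6800000,
    37578)]))) (.leaf 14744589 0 [(0, 10000000), (3183099, 8830202), (3750000, 8332329), (4350000,
    7672153), (4800000, 7064727), (5250000, 6340942), (5625000, 5668480), (5850000, 5273400),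
    (6075000, 4812865), (6300000, 4316166), (6525000, 3773309), (6750000, 1727665)] [(6800000,
    61964)])) (.leaf 14744589 0 [(0, 10000000), (3183099, 8830202), (4800000, 7067577), (5550000,
    6160603), (6300000, 5033176), (6750000, 1727665)] [(6800000, 61964)]))

theorem row099_ok : row099.check 990000 6750000 6800000 0 10000000 = true := by
  decide

end Vale.Agent.P232.GraphData
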