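import Vale.Agent.P232.GraphCert

/-! # P232: graph certificate, share at least 1060000/10^7 -/

namespace Vale.Agent.P232.GraphData

/-- Part of the certificate. -/
def row106 : GTree :=
  .cutW 4000000 (.leaf 14745220 561720 [(0, 9992108), (74444, 9974206), (1340000, 9525030),
    (2084444, 9250627), (3126666, 8852183), (3201111, 8815927), (3498888, 8566375), (3796666,
    8286096), (4094444, 7971852), (4392222, 7619440), (4690000, 7223278), (4987777, 6775695),
    (5285555, 6265680), (5583333, 5676431), (5881111, 4979900), (6178888, 4122060), (6327777,
    3597606), (6476666, 2966101), (6551111, 2574239), (6625555, 2043389), (6700000, 1299914)]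
    [(6750000, 42998)]) (.cutW 7000000 (.cutW 5500000 (.cutW 4750000 (.leaf 14748004 559898 [(0,
    9992159), (74444, 9974196), (1414444, 9497752), (2456666, 9109974), (3201111, 8815450),
    (3498888, 8565788), (3796666, 8285382), (4094444, 7970989), (4392222, 7618401), (4690000,
    7222027), (4987777, 6774188), (5285555, 6263849), (5583333, 5674176), (5881111, 4977048),
    (6178888, 4118256), (6327777, 3602324), (6476666, 2999685), (6625555, 2042412), (6700000,
    1299600)] [(6750000, 27583)]) (.cutW 5120000 (.leaf 14793938 382674 [(0, 9996322), (1861111,
    9329227), (3201111, 8807559), (3796666, 8273570), (4392222, 7601201), (4987777, 6749224),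
    (5285555, 6233515), (5732222, 5299826), (5955555, 4775411), (6178888, 4175091), (6402222,
    3481615), (6625555, 2620961), (6700000, 1803838)] [(6750000, 61745)]) (.leaf 14851534 203890
    [(0, 9998956), (1786666, 9351791), (3201111, 8797621), (3796666, 8258682), (4392222, 7579502),
    (4987777, 6717682), (5285555, 6196521), (5657777, 5447299), (5881111, 4980637), (6104444,
    4443974), (6327777, 3844083), (6625555, 2765728), (6700000, 1781356)] [(6750000, 9156)])))
    (.leaf 14969393 0 [(0, 10000000), (3201111, 8777128), (3796666, 8227952), (4838888, 6894301),
    (5434444, 5831232), (5657777, 5454359), (5881111, 4992989), (6178888, 4270156), (6327777,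
    4006322), (6551111, 3331809), (6700000, 1724136)] [(6750000, 63114)])) (.leaf 14969393 0 [(0,
    10000000), (3201111, 8777128), (4466666, 7438842), (5508888, 5947700), (6327777, 4714495),
    (6700000, 1724136)] [(6750000, 63114)]))

theorem row106_ok : row106.check 1060000 6700000 6750000 0 10000000 = true := by
  decide

end Vale.Agent.P232.GraphData
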