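import Vale.Agent.P232.GraphCert

/-! # P232: graph certificate, share at least 1110000/10^7 -/

namespace Vale.Agent.P232.GraphData

/-- Part of the certificate. -/
def row111 : GTree :=
  .cutW 4000000 (.leaf 14861469 573081 [(0, 9991786), (73888, 9973993), (1256111, 9548254),
    (1921111, 9300216), (3177222, 8812672), (3398888, 8630463), (3694444, 8357903), (3990000,
    8052226), (4285555, 7709493), (4581111, 7324504), (4876666, 6890180), (5172222, 6396477),
    (5467777, 5828329), (5615555, 5509262), (5763333, 5161205), (5911111, 4777829), (6058888,
    4349807), (6206666, 3862318), (6354444, 3289029), (6502222, 2573220), (6576111, 2046453),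
    (6650000, 1304984)] [(6700000, 51043)]) (.cutW 7000000 (.cutW 5500000 (.cutW 4750000 (.leaf
    14861429 573081 [(0, 9991786), (73888, 9973993), (960555, 9656451), (2290555, 9159520),
    (3177222, 8812678), (3694444, 8357913), (3990000, 8052238), (4285555, 7709507), (4581111,
    7324521), (4876666, 6890200), (5172222, 6396502), (5467777, 5828360), (5763333, 5161243),
    (5911111, 4777872), (6058888, 4349857), (6206666, 3863294), (6354444, 3302959), (6428333,
    3001116), (6502222, 2576599), (6576111, 2046572), (6650000, 1305176)] [(6700000, 55807)])
    (.leaf 14815647 392816 [(0, 9996135), (1108333, 9605002), (2586111, 9051564), (3177222,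
    8820471), (3398888, 8639560), (3694444, 8369000), (3990000, 8065658), (4285555, 7725674),
    (4581111, 7343960), (4876666, 6913608), (5172222, 6424851), (5467777, 5863103), (5615555,
    5555134), (5763333, 5227141), (5837222, 5067447), (5985000, 4692555), (6058888, 4522688),
    (6132777, 4327121), (6206666, 4123221), (6280555, 3909860), (6354444, 3685583), (6428333,
    3448455), (6502222, 3195826), (6576111, 2758006), (6650000, 1774213)] [(6700000, 74998)]))
    (.leaf 15117970 52901 [(0, 9999929), (3177222, 8768437), (4285555, 7617348), (4876666,
    6756168), (5246111, 6108355), (5689444, 5195817), (5911111, 4773345), (6132777, 4243157),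
    (6354444, 3653185), (6502222, 3298151), (6650000, 1717650)] [(6700000, 24754)])) (.leaf
    15196668 0 [(0, 10000000), (3177222, 8754668), (4211666, 7685483), (5541666, 5613643),
    (6280555, 4601395), (6650000, 1720816)] [(6700000, 63384)]))

theorem row111_ok : row111.check 1110000 6650000 6700000 0 10000000 = true := by
  decide

end Vale.Agent.P232.GraphData
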