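import Vale.Agent.P232.GraphCert

/-! # P232: graph certificate, share at least 1150000/10^7 -/

namespace Vale.Agent.P232.GraphData

/-- Part of the certificate. -/
def row115 : GTree :=
  .cutW 4000000 (.leaf 14972035 589645 [(0, 9991304), (73333, 9973803), (660000, 9761695), (1246666,
    9544876), (2126666, 9210082), (2640000, 9009041), (3183099, 8791339), (3446666, 8565668),
    (3740000, 8285236), (4033333, 7970812), (4326666, 7618189), (4620000, 7221772), (4913333,
    6773879), (5060000, 6527365), (5206666, 6263476), (5353333, 5979909), (5500000, 5673715),
    (5646666, 5341007), (5793333, 4976466), (5940000, 4572486), (6086666, 4117479), (6233333,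
    3592098), (6380000, 2959099), (6453333, 2578043), (6526666, 2048872), (6600000, 1309458)]
    [(6650000, 49641)]) (.cutW 7000000 (.cutW 5500000 (.cutW 4750000 (.leaf 14976472 586699 [(0,
    9991390), (73333, 9973787), (953333, 9653686), (1540000, 9434253), (2420000, 9095183),
    (3183099, 8790574), (3446666, 8564747), (3740000, 8284114), (4033333, 7969456), (4326666,
    7616557), (4620000, 7219808), (4913333, 6771511), (5206666, 6260600), (5500000, 5670171),
    (5646666, 5337040), (5793333, 4971983), (5940000, 4567357), (6086666, 4111497), (6233333,
    3587095), (6306666, 3302331), (6380000, 2984610), (6453333, 2578335), (6526666, 2049098),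
    (6600000, 1309584)] [(6650000, 48753)]) (.leaf 14984897 445248 [(0, 9995037), (880000,
    9680400), (2126666, 9208666), (3183099, 8789119), (3740000, 8281983), (4326666, 7613454),
    (4913333, 6767010), (5206666, 6255132), (5646666, 5329494), (5866666, 4796551), (6013333,
    4420336), (6086666, 4238176), (6233333, 3768416), (6306666, 3567301), (6453333, 2990421),
    (6526666, 2587730), (6600000, 1771110)] [(6650000, 75304)])) (.leaf 15246626 119787 [(0,
    9999636), (3183099, 8743392), (4326666, 7515548), (4913333, 6624371), (5280000, 5954736),
    (5720000, 5004142), (5940000, 4564329), (6160000, 4002878), (6380000, 3367371), (6453333,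
    3302804), (6600000, 1711714)] [(6650000, 22063)])) (.leaf 15426514 0 [(0, 10000000), (3183099,
    8711363), (4106666, 7739386), (5500000, 5484711), (6306666, 4253646), (6600000, 1717612)]
    [(6650000, 60290)]))

theorem row115_ok : row115.check 1150000 6600000 6650000 0 10000000 = true := by
  decide

end Vale.Agent.P232.GraphData
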