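import Vale.Agent.P232.GraphCert

/-! # P232: graph certificate, share at least 1180000/10^7 -/

namespace Vale.Agent.P232.GraphData

/-- Part of the certificate. -/
def row118 : GTree :=
  .cutW 4000000 (.leaf 15095391 599185 [(0, 9991020), (72777, 9973571), (655000, 9759562), (1310000,
    9513049), (1892222, 9288436), (2183333, 9174067), (2547222, 9029069), (3129444, 8792100),
    (3202222, 8754062), (3347777, 8629085), (3493333, 8496591), (3638888, 8356223), (3784444,
    8207575), (3930000, 8050191), (4075555, 7883547), (4221111, 7707041), (4366666, 7519980),
    (4512222, 7321554), (4657777, 7110814), (4803333, 6886626), (4948888, 6647633), (5094444,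
    6392172), (5240000, 6118181), (5385555, 5823047), (5531111, 5503366), (5676666, 5154578),
    (5749444, 4967371), (5822222, 4770296), (5895000, 4562077), (5967777, 4341112), (6040555,
    4105337), (6113333, 3852038), (6186111, 3577493), (6258888, 3276371), (6331666, 2940509),
    (6404444, 2556255), (6477222, 2051429), (6550000, 1313635)] [(6600000, 21359)]) (.cutW 7000000
    (.cutW 5500000 (.cutW 4750000 (.leaf 15102547 594415 [(0, 9991162), (72777, 9973546), (800555,
    9705039), (1237222, 9540308), (1819444, 9316137), (2620000, 8998788), (3129444, 8790876),
    (3202222, 8752796), (3493333, 8495039), (3784444, 8205690), (4075555, 7881270), (4366666,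
    7517240), (4512222, 7318549), (4657777, 7107517), (4803333, 6883005), (4948888, 6643651),
    (5094444, 6387783), (5240000, 6113330), (5385555, 5817663), (5531111, 5497357), (5676666,
    5147819), (5822222, 4762612), (5967777, 4332239), (6113333, 3841541), (6186111, 3569687),
    (6258888, 3274780), (6331666, 2950741), (6404444, 2580609), (6477222, 2052035), (6550000,
    1314226)] [(6600000, 36701)]) (.leaf 15132940 513587 [(0, 9993389), (1310000, 9510561),
    (3129444, 8785668), (3493333, 8488436), (4075555, 7871580), (4657777, 7093478), (5240000,
    6092658), (5676666, 5118976), (5895000, 4556827), (6040555, 4155448), (6186111, 3696478),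
    (6331666, 3176849), (6477222, 2309329), (6550000, 1692832)] [(6600000, 39574)])) (.leaf
    15355876 200211 [(0, 9998985), (3129444, 8747050), (4075555, 7799537), (4803333, 6752446),
    (5240000, 5949530), (5603888, 5187791), (6040555, 4052367), (6258888, 3559815), (6404444,
    3175091), (6550000, 1705337)] [(6600000, 8678)])) (.leaf 15658928 0 [(0, 10000000), (3202222,
    8651961), (4803333, 6594122), (5531111, 5523944), (6331666, 3834255), (6550000, 1714811)]
    [(6600000, 62300)]))

theorem row118_ok : row118.check 1180000 6550000 6600000 0 10000000 = true := by
  decide

end Vale.Agent.P232.GraphData
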